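import Vale.Agent.Results.P113.HaltingForce
import Vale.Agent.Lib.P113.D2Comp
import Vale.Agent.Lib.P113.D2Dn

/-!
# P113, second formulation

The answer to the question, with fields and partial derivatives on `UnitAddTorus (Fin 3)`, tapes `Turing.Tape`, and the
force compiler as one algorithm (a `Nat.Partrec.Code`) that outputs programs.
-/

open Set

namespace Vale.Agent.Results.P113.ForcedFlowHalting

open Vale.Agent.P113 Vale.Agent.P113D2

private noncomputable def low (g : ℝ → Torus3 → ℝ) (w : Fin 4 → ℝ) : ℝ :=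
  g (w 0) (cov ![w 1, w 2, w 3])

private theorem low_smooth {g : ℝ → Torus3 → ℝ} (hg : SmoothOnTorus g) :
    ContDiff ℝ (⊤ : ℕ∞) (low g) := by
  have h2 : ContDiff ℝ (⊤ : ℕ∞) (fun w : Fin 4 → ℝ => ((w 0, ![w 1, w 2, w 3]) : ℝ × V3)) := by
    refine (contDiff_apply ℝ ℝ (0 : Fin 4)).prodMk (contDiff_pi.2 fun j => ?_)
    fin_cases j
    · exact contDiff_apply ℝ ℝ (1 : Fin 4)
    · exact contDiff_apply ℝ ℝ (2 : Fin 4)
    · exact contDiff_apply ℝ ℝ (3 : Fin 4)
  exact hg.comp h2

private theorem pd4_line {G : (Fin 4 → ℝ) → ℝ} (hG : ContDiff ℝ (⊤ : ℕ∞) G) (j : Fin 4)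
    (w : Fin 4 → ℝ) : pd4 j G w = deriv (fun s : ℝ => G (w + s • Pi.single j 1)) 0 := by
  have h1 : DifferentiableAt ℝ G w := (hG.differentiable (by simp)).differentiableAt
  exact (h1.lineDeriv_eq_fderiv (v := Pi.single j 1)).symm

private theorem low_T {g : ℝ → Torus3 → ℝ} (hg : SmoothOnTorus g) :
    low (fun t θ => deriv (fun s => g s θ) t) = pd4 0 (low g) := by
  funext w
  rw [pd4_line (low_smooth hg)]
  have h1 : (fun s : ℝ => low g (w + s • Pi.single 0 1)) =
      fun s => g (w 0 + s) (cov ![w 1, w 2, w 3]) := by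
    funext s
    simp [low]
  rw [h1]
  change deriv (fun s => g s (cov ![w 1, w 2, w 3])) (w 0) = _
  have h2 := deriv_comp_const_add (fun s => g s (cov ![w 1, w 2, w 3])) (w 0) 0
  rw [add_zero] at h2
  exact h2.symm

private theorem low_D {g : ℝ → Torus3 → ℝ} (hg : SmoothOnTorus g) (i : Fin 3) :
    low (fun t => D i (g t)) = pd4 i.succ (low g) := by
  funext w
  rw [pd4_line (low_smooth hg)]
  change deriv (fun s : ℝ => g (w 0) (cov ![w 1, w 2, w 3] + Pi.single i (s : UnitAddCircle))) 0 = _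
  congr 1
  funext s
  rw [← cov_add_single]
  have h0 : (w + s • (Pi.single i.succ 1 : Fin 4 → ℝ)) 0 = w 0 := by
    simp
  have h1 : ![(w + s • (Pi.single i.succ 1 : Fin 4 → ℝ)) 1,
      (w + s • (Pi.single i.succ 1 : Fin 4 → ℝ)) 2,
      (w + s • (Pi.single i.succ 1 : Fin 4 → ℝ)) 3] =
      ![w 1, w 2, w 3] + s • (Pi.single i 1 : Fin 3 → ℝ) := by
    funext k
    fin_cases i <;> fin_cases k <;> simp
  unfold low
  rw [h0, h1]

private theorem iter_T (n : ℕ) : ∀ {g : ℝ → Torus3 → ℝ}, SmoothOnTorus g →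
    low ((fun h t θ => deriv (fun s => h s θ) t)^[n] g) = (pd4 0)^[n] (low g) := by
  induction n with
  | zero => intro g _; rfl
  | succ n ih =>
    intro g hg
    rw [Function.iterate_succ_apply, Function.iterate_succ_apply, ih (smooth_T hg), low_T hg]

private theorem iter_D (i : Fin 3) (n : ℕ) : ∀ {g : ℝ → Torus3 → ℝ}, SmoothOnTorus g →
    SmoothOnTorus ((fun h t => D i (h t))^[n] g) ∧
      low ((fun h t => D i (h t))^[n] g) = (pd4 i.succ)^[n] (low g) := by
  induction n with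
  | zero => intro g hg; exact ⟨hg, rfl⟩
  | succ n ih =>
    intro g hg
    rw [Function.iterate_succ_apply, Function.iterate_succ_apply, ← low_D hg i]
    exact ih (smooth_D hg i)

private theorem mixed_eq {F : ℝ → R3 → R3} (hF : SmoothField F) (i : Fin 3) (α : Fin 4 → ℕ)
    (t x₀ x₁ x₂ : ℝ) :
    mixed α (fun t θ => dn F t θ i) t (cov ![x₀, x₁, x₂]) =
      mixedDeriv (α 0, α 1, α 2, α 3) (fun w => F (w 0) ![w 1, w 2, w 3] i) ![t, x₀, x₁, x₂] := by
  have h1 : SmoothOnTorus (fun t θ => dn F t θ i) := smooth_comp (smooth_dn hF) i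
  have h2 : low (fun t θ => dn F t θ i) = fun w => F (w 0) ![w 1, w 2, w 3] i := by
    funext w
    exact congrFun (lift_dn (hF.2 (w 0)) ![w 1, w 2, w 3]) i
  obtain ⟨s3, e3⟩ := iter_D 2 (α 3) h1
  obtain ⟨s2, e2⟩ := iter_D 1 (α 2) s3
  obtain ⟨s1, e1⟩ := iter_D 0 (α 1) s2
  have e0 := iter_T (α 0) s1
  have h3 := congrFun e0 ![t, x₀, x₁, x₂]
  rw [e1, e2, e3, h2] at h3
  exact h3

/-- For every computable `ν > 0` there are a point, an open set and a force compiler such that for every machine and every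
input the forced Navier-Stokes system on `𝕋³` started from rest has a global smooth solution, unique among classical
solutions on each `[0,T]`, whose trajectory from the point enters the open set iff the machine halts on the input. -/
theorem result : ∀ ν : ℝ, 0 < ν → ComputableReal ν →
    ∃ (a : Torus3) (O : Set Torus3) (A : Nat.Partrec.Code)
      (f : (M : Machine) → List (Fin (M.s + 1)) → ℝ → Torus3 → V3),
      IsOpen O ∧ Compiles A f ∧ ∀ (M : Machine) (w : List (Fin (M.s + 1))),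
        ∃ (u : ℝ → Torus3 → V3) (p : ℝ → Torus3 → ℝ),
          SmoothOnTorus u ∧ SmoothOnTorus p ∧ (∀ T, 0 < T → SolvesOn ν T (f M w) u p) ∧
          (∀ T, 0 < T → ∀ (v : ℝ → Torus3 → V3) (q : ℝ → Torus3 → ℝ), SolvesOn ν T (f M w) v q →
            ∀ t ∈ Icc 0 T, v t = u t ∧ q t = p t) ∧
          (∃ X, IsPath u a X) ∧
          ∀ X, IsPath u a X → ((∃ t, 0 ≤ t ∧ X t ∈ O) ↔ M.Halts w) := by
  intro ν hν hνc
  obtain ⟨a, O, compile, F, hO, hcomp, hF⟩ := HaltingForce.result ν hν (computable_real hνc)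
  obtain ⟨A, hA⟩ := exists_algorithm hcomp.computable
  obtain ⟨T₀, -, hper, hind⟩ := hcomp.eventually_periodic
  refine ⟨a, O, A, fun M w => dn (F (toTM M) w), hO, ⟨fun M w => smooth_dn (hcomp.smooth _ _),
    fun M w => ?_, T₀, fun M => ⟨?_, ?_⟩⟩, fun M w => ?_⟩
  · obtain ⟨c, hc1, hc2⟩ := hA (M.description, w.map Fin.val)
    refine ⟨c, hc1, ?_⟩
    intro i α t x₀ x₁ x₂ e he
    obtain ⟨r, hr1, hr2⟩ := hcomp.program (toTM M) w i (α 0, α 1, α 2, α 3) (inQ t) (inQ x₀)
      (inQ x₁) (inQ x₂) e.2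
    rw [toTM_code] at hr1
    refine ⟨outQ r, hc2 (i.val, (α 0, α 1, α 2, α 3), (t, x₀, x₁, x₂), e) r hr1, ?_⟩
    rw [rat_outQ, mixed_eq (hcomp.smooth _ _)]
    simp only [ratVal_inQ] at hr2
    refine hr2.trans ?_
    unfold rat at he ⊢
    have h1 : (0 : ℝ) < (e.2 : ℝ) + 1 := by positivity
    have h2 : (0 : ℝ) < (e.1 : ℝ) := by
      by_contra h3
      exact absurd he (not_lt.2 (div_nonpos_of_nonpos_of_nonneg (not_lt.1 h3) h1.le))
    have h3 : (1 : ℝ) ≤ (e.1 : ℝ) := by
      have h4 : (0 : ℤ) < e.1 := by exact_mod_cast h2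
      exact_mod_cast h4
    exact div_le_div_of_nonneg_right h3 h1.le
  · obtain ⟨P, hP, hP2⟩ := hper (toTM M) []
    refine ⟨P, hP, fun w t ht => ?_⟩
    funext θ
    change F (toTM M) w (t + P) (sec θ) = F (toTM M) w t (sec θ)
    rw [hind (toTM M) w [] (t + P) (by linarith), hP2 t ht, hind (toTM M) [] w t ht]
  · intro w w' t ht
    funext θ
    change F (toTM M) w t (sec θ) = F (toTM M) w' t (sec θ)
    rw [hind (toTM M) w w' t ht]
  · obtain ⟨U, P, hU, hP, hsol, ⟨X₀, hX₀⟩, htraj⟩ := hF (toTM M) w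
    have hlu : ∀ t x, dn U t (cov x) = U t x := fun t x => lift_dn (hU.2 t) x
    refine ⟨dn U, dn P, smooth_dn hU, smooth_dn hP,
      fun T hT => dn_solution hT (hcomp.smooth _ _) hU hP (hsol T hT).1, ?_, ?_, ?_⟩
    · intro T hT v q hvq t ht
      have h1 := up_solution hT (fun t x => lift_dn ((hcomp.smooth _ _).2 t) x) hvq
      have h2 := (hsol T hT).2 _ _ h1 t ht
      constructor
      · funext θ
        have h3 := (h2 (sec θ)).1
        change v t (cov (sec θ)) = U t (sec θ) at h3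
        rwa [cov_sec] at h3
      · funext θ
        have h3 := (h2 (sec θ)).2
        change q t (cov (sec θ)) = P t (sec θ) at h3
        rwa [cov_sec] at h3
    · refine ⟨fun t => cov (X₀ t), hX₀.1, X₀, fun t _ => rfl, fun t ht => ?_⟩
      rw [hlu]
      exact hX₀.2 t ht
    · rintro X ⟨hX0, Y, hY1, hY2⟩
      have h1 : IsTrajectory U a Y := by
        refine ⟨?_, fun t ht => ?_⟩
        · rw [toTorus_eq, hY1 0 le_rfl, hX0]
        · have h3 := hY2 t ht
          rwa [← hY1 t ht, hlu] at h3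
      rw [← halts_iff, ← htraj _ h1]
      refine exists_congr fun t => and_congr_right fun ht => ?_
      rw [toTorus_eq, hY1 t ht]

end Vale.Agent.Results.P113.ForcedFlowHalting
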