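import Vale.Agent.Lib.P113.Defs
import Vale.Agent.Lib.P113.Unique
import Vale.Agent.Lib.P113.NS
import Vale.Agent.Lib.P113.PrimGates
import Vale.Agent.Lib.P113.Compile

/-!
# P113: halting detection by particle trajectories of forced Navier–Stokes flows from rest

For every computable viscosity `ν > 0` there are a point `a` of the flat torus `𝕋³`, an open set
`O ⊆ 𝕋³` and a force compiler such that for every Turing machine `M` and every input `w` the
Navier–Stokes system with force `f M w` and zero initial velocity has a global smooth solution,
unique among classical solutions on every `[0,T]`, whose trajectory from `a` meets `O` if and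
only if `M` halts on `w`.
-/

open Set

namespace Vale.Agent.Results.P113.HaltingForce

open Vale.Agent.P113

theorem result (ν : ℝ) (hν : 0 < ν) (hνc : IsComputableReal ν) :
    ∃ (a : T3) (O : Set T3) (compile : TMCode × List ℕ → Nat.Partrec.Code)
      (f : (M : TM) → List (Fin (M.m + 1)) → ℝ → R3 → R3),
      IsOpen O ∧ IsForceCompiler compile f ∧
      ∀ (M : TM) (w : List (Fin (M.m + 1))), ∃ (u : ℝ → R3 → R3) (p : ℝ → R3 → ℝ),
        SmoothField u ∧ SmoothField p ∧
        (∀ T : ℝ, 0 < T → IsClassicalSolution ν T (f M w) u p ∧
          ∀ (v : ℝ → R3 → R3) (q : ℝ → R3 → ℝ), IsClassicalSolution ν T (f M w) v q →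
            ∀ t ∈ Icc 0 T, ∀ x, v t x = u t x ∧ q t x = p t x) ∧
        (∃ X, IsTrajectory u a X) ∧
        ∀ X, IsTrajectory u a X → ((∃ t, 0 ≤ t ∧ toTorus (X t) ∈ O) ↔ M.HaltsOn w) := by
  obtain ⟨compile, hcomp, hprog⟩ :=
    compile_exists hνc (fun i a => velTerms i a) velTerms_primrec
  refine ⟨0, detector, compile, fun M w => fField ν (M.code, w.map Fin.val), detector_open, ?_, ?_⟩
  · refine
      { computable := hcomp
        smooth := fun M w => fField_smooth ν _
        program := fun M w => hprog _
        eventually_periodic := ?_ }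
    refine ⟨1, zero_le_one, ?_, ?_⟩
    · intro M w
      exact ⟨1, one_pos, fun t ht x => fField_add_one ν _ ht x⟩
    · intro M w w' t ht x
      exact fField_input ν _ _ _ ht x
  · intro M w
    refine ⟨uField (M.code, w.map Fin.val), fun _ _ => 0, uField_smooth _, ?_, ?_,
      trajectory_exists _, ?_⟩
    · exact ⟨contDiff_const, fun t x k => rfl⟩
    · intro T hT
      have h := isClassicalSolution ν (M.code, w.map Fin.val) hT
      exact ⟨h, fun v q hv => classical_unique hν hT h hv⟩
    · intro X hX
      exact trajectory_halting M w hX

end Vale.Agent.Results.P113.HaltingForce
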