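import Vale.Agent.Results.P113.HaltingForce
import Vale.Agent.Lib.P113.D3Comp
import Vale.Agent.Lib.P113.D2Field

/-!
# P113, third formulation

The answer to the question, with the equations written without coordinates on the Euclidean space `ℝ³` (Mathlib's gradient,
Laplacian and derivative).
-/

open Set

namespace Vale.Agent.Results.P113.TrajectoryHalting

open Vale.Agent.P113 (toTorus T3 R3 IsTrajectory SmoothField)
open Vale.Agent.P113D3

private theorem toTorus_add (y : R3) (k : Fin 3 → ℤ) : toTorus (fun i => y i + k i) = toTorus y :=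
  Vale.Agent.P113D2.periodic_up (fun θ => θ) y k

/-- For every computable `ν > 0` there are a point `a` and an open set `O` of `𝕋³` and a force compiler such that, for every
machine `M` and every input `w`, the forced Navier-Stokes system on `𝕋³` with force `f M w` and zero initial velocity has a
global smooth solution `(u, p)`, unique among classical solutions on each `[0,T]`, and the trajectory of `a` exists and lies
in `O` at some time `t ≥ 0` if and only if `M` halts on `w`. -/
theorem result (ν : ℝ) (hν : 0 < ν) (hc : ComputableReal ν) :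
    ∃ (a : E3) (O : Set E3) (compile : Description × List ℕ → Nat.Partrec.Code)
      (f : (M : Machine) → List (Fin (M.m + 1)) → ℝ → E3 → E3),
      IsOpen O ∧ OnTorus (fun x => x ∈ O) ∧ ForceCompiler compile f ∧
      ∀ (M : Machine) (w : List (Fin (M.m + 1))), ∃ (u : ℝ → E3 → E3) (p : ℝ → E3 → ℝ),
        Smooth u ∧ Smooth p ∧
        (∀ T : ℝ, 0 < T → Solves ν T (f M w) u p ∧
          ∀ (v : ℝ → E3 → E3) (q : ℝ → E3 → ℝ), Solves ν T (f M w) v q →
            ∀ t ∈ Icc 0 T, v t = u t ∧ q t = p t) ∧
        (∃ X, Trajectory u a X) ∧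
        ∀ X, Trajectory u a X → ((∃ t, 0 ≤ t ∧ X t ∈ O) ↔ M.HaltsOn w) := by
  obtain ⟨a, O, compile, F, hO, hcomp, hF⟩ := HaltingForce.result ν hν (computable_real hc)
  obtain ⟨A, hA, hA2⟩ := exists_compile hcomp.computable
  obtain ⟨T₀, -, hper, hind⟩ := hcomp.eventually_periodic
  obtain ⟨b, hb⟩ : ∃ b : R3, toTorus b = a := Vale.Agent.P113D2.cov_surjective a
  refine ⟨e.symm b, {x | toTorus (e x) ∈ O}, A, fun M w => up (F (toTM M) w), ?_, ?_,
    ⟨hA, fun M w => ⟨smooth_up (hcomp.smooth _ _), ?_⟩, T₀, fun M => ⟨?_, ?_⟩⟩, fun M w => ?_⟩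
  · exact hO.preimage (Vale.Agent.P113D2.continuous_cov.comp e.continuous)
  · rw [onTorus_iff]
    intro y k
    change (toTorus (e (e.symm fun i => y i + k i)) ∈ O) = (toTorus (e (e.symm y)) ∈ O)
    rw [ContinuousLinearEquiv.apply_symm_apply, ContinuousLinearEquiv.apply_symm_apply,
      toTorus_add]
  · intro i α₀ α₁ α₂ α₃ t x y z ε hε
    obtain ⟨r, hr1, hr2⟩ := hcomp.program (toTM M) w i (α₀, α₁, α₂, α₃)
      (Vale.Agent.P113D2.inQ t) (Vale.Agent.P113D2.inQ x) (Vale.Agent.P113D2.inQ y)
      (Vale.Agent.P113D2.inQ z) ε.2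
    rw [toTM_code] at hr1
    refine ⟨Vale.Agent.P113D2.outQ r,
      hA2 (M.description, w.map Fin.val) (i.val, (α₀, α₁, α₂, α₃), (t, x, y, z), ε) r hr1, ?_⟩
    have h0 : rat (Vale.Agent.P113D2.outQ r) = Vale.Agent.P113.ratVal r :=
      Vale.Agent.P113D2.rat_outQ r
    rw [h0, mixed_up (hcomp.smooth _ _)]
    simp only [Vale.Agent.P113D2.ratVal_inQ] at hr2
    refine hr2.trans ?_
    unfold rat at hε ⊢
    have h1 : (0 : ℝ) < (ε.2 : ℝ) + 1 := by positivity
    have h2 : (0 : ℝ) < (ε.1 : ℝ) := by
      by_contra h3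
      exact absurd hε (not_lt.2 (div_nonpos_of_nonpos_of_nonneg (not_lt.1 h3) h1.le))
    have h3 : (1 : ℝ) ≤ (ε.1 : ℝ) := by
      have h4 : (0 : ℤ) < ε.1 := by exact_mod_cast h2
      exact_mod_cast h4
    exact div_le_div_of_nonneg_right h3 h1.le
  · obtain ⟨P, hP, hP2⟩ := hper (toTM M) []
    refine ⟨P, hP, fun w t ht => ?_⟩
    funext x
    change e.symm (F (toTM M) w (t + P) (e x)) = e.symm (F (toTM M) w t (e x))
    rw [hind (toTM M) w [] (t + P) (by linarith), hP2 t ht, hind (toTM M) [] w t ht]
  · intro w w' t ht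
    funext x
    change e.symm (F (toTM M) w t (e x)) = e.symm (F (toTM M) w' t (e x))
    rw [hind (toTM M) w w' t ht]
  · obtain ⟨U, P, hU, hP, hsol, ⟨X₀, hX₀⟩, htraj⟩ := hF (toTM M) w
    have hu : ∀ t x, up U t x = e.symm (U t (e x)) := fun t x => rfl
    refine ⟨up U, ups P, smooth_up hU, smooth_ups hP, fun T hT => ⟨?_, ?_⟩, ?_, ?_⟩
    · rw [solves_iff hT, down_up, down_up, downs_ups]
      exact (hsol T hT).1
    · intro v q hvq t ht
      rw [solves_iff hT, down_up] at hvq
      have h2 := (hsol T hT).2 _ _ hvq t ht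
      constructor
      · funext x
        have h3 := (h2 (e x)).1
        have h4 : v t x = up (down v) t x := by rw [up_down]
        rw [h4, hu, ← h3]
        rfl
      · funext x
        have h3 := (h2 (e x)).2
        have h4 : q t x = ups (downs q) t x := by rw [ups_downs]
        rw [h4]
        exact h3
    · obtain ⟨h1, h2⟩ := hX₀
      have h3 : Vale.Agent.P113D2.cov (X₀ 0) = Vale.Agent.P113D2.cov b := h1.trans hb.symm
      have h4 : ∃ k : Fin 3 → ℤ, X₀ 0 = fun i => b i + k i := by
        have h5 : ∀ i, ∃ n : ℤ, X₀ 0 i = b i + n := by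
          intro i
          have h6 : ((X₀ 0 i : ℝ) : UnitAddCircle) = (b i : ℝ) := congrFun h3 i
          rw [← sub_eq_zero, ← AddCircle.coe_sub] at h6
          obtain ⟨n, hn⟩ := (AddCircle.coe_eq_zero_iff (1 : ℝ)).1 h6
          refine ⟨n, ?_⟩
          rw [zsmul_eq_mul, mul_one] at hn
          linarith
        choose k hk using h5
        exact ⟨k, funext hk⟩
      obtain ⟨k, hk⟩ := h4
      set Y : ℝ → R3 := fun t i => X₀ t i - k i with hY
      have hXY : ∀ t, X₀ t = fun i => Y t i + ((k i : ℤ) : ℝ) := by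
        intro t
        funext i
        simp [hY]
      refine ⟨fun t => e.symm (Y t), ?_, fun t ht => ?_⟩
      · change e.symm (Y 0) = e.symm b
        congr 1
        funext i
        simp [hY, hk]
      · have h5 := h2 t ht
        have h6 : U t (X₀ t) = U t (Y t) := by
          rw [hXY t]
          exact hU.2 t (Y t) k
        rw [h6] at h5
        have h7 : HasDerivWithinAt Y (U t (Y t)) (Ici 0) t :=
          h5.sub_const (fun i => ((k i : ℤ) : ℝ))
        have h8 := (e.symm : R3 →L[ℝ] E3).hasFDerivAt.comp_hasDerivWithinAt t h7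
        rw [hu, ContinuousLinearEquiv.apply_symm_apply]
        exact h8
    · rintro X ⟨hX0, hX⟩
      have h1 : IsTrajectory U a fun t => e (X t) := by
        refine ⟨?_, fun t ht => ?_⟩
        · change toTorus (e (X 0)) = a
          rw [hX0, ContinuousLinearEquiv.apply_symm_apply, hb]
        · have h2 := (e : E3 →L[ℝ] R3).hasFDerivAt.comp_hasDerivWithinAt t (hX t ht)
          rw [hu] at h2
          have h3 : (e : E3 →L[ℝ] R3) (e.symm (U t (e (X t)))) = U t (e (X t)) :=
            e.apply_symm_apply _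
          rw [h3] at h2
          exact h2
      rw [← halts_iff, ← htraj _ h1]
      rfl

end Vale.Agent.Results.P113.TrajectoryHalting
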